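import Vale.Agent.P181.G388.LemG2
import Vale.Agent.P181.H411.UIter

/-!
P181, the upper bound for the kernel for all `a ≤ b`: iteration of Lemma G.
-/

set_option autoImplicit false

open MvPolynomial

namespace Vale.Agent.P181.G388

open Vale.Agent.P181 Vale.Agent.P181.H536 Vale.Agent.P181.H280 Vale.Agent.P181.TN
  Vale.Agent.P181.TW Vale.Agent.P181.R2.H866 Vale.Agent.P181.H72 Vale.Agent.P181.H411.UB

variable {n : ℕ}

lemma shr_ln (z z' : Sn n) (x : ℂ) : shr n z z' (ln n x) = ln n x + (z + x • z') := by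
  rw [ln, map_add, map_smul, shr_zero, shr_one, smul_add]
  abel

lemma shr_comp {y y' : Sn n} (hy : y ∈ ZZ n) (hy' : y' ∈ ZZ n) (z z' : Sn n) :
    shr n (y + z) (y' + z') = (shr n z z').comp (shr n y y') := by
  apply MvPolynomial.algHom_ext
  intro i
  rw [AlgHom.comp_apply]
  refine Fin.cases ?_ (fun i => ?_) i
  · rw [shr_zero, shr_zero, map_add, shr_zero, shr_Z hy]
    abel
  · refine Fin.cases ?_ (fun i => ?_) i
    · change shr n (y + z) (y' + z') (X 1) = shr n z z' (shr n y y' (X 1))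
      rw [shr_one, shr_one, map_add, shr_one, shr_Z hy']
      abel
    · rw [shr_succ, shr_succ, shr_succ]

lemma shr_zero_zero (p : Sn n) : shr n 0 0 p = p := by
  have h1 : shr n 0 0 = AlgHom.id ℂ (Sn n) := by
    apply MvPolynomial.algHom_ext
    intro i
    rw [AlgHom.id_apply]
    refine Fin.cases ?_ (fun i => ?_) i
    · rw [shr_zero, add_zero]
    · refine Fin.cases ?_ (fun i => ?_) i
      · change shr n 0 0 (X 1) = X 1
        rw [shr_one, add_zero]
      · rw [shr_succ]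
  rw [h1, AlgHom.id_apply]

/-- Invariance of a coefficient when all larger coefficients vanish. -/
lemma DW_shearF {a b : ℕ} {F : Fm n a} (hI : InvF (b + 1) F) (e : Fin n → ℕ) (x : ℂ)
    (hz : ∀ d : Fin n → ℕ, e ≤ d → d ≠ e → ∀ g : Fin a → Sn n, Dg b g → DW d x F g = 0)
    (i₀ : Fin n) (ζ₁ ζ₂ : ℂ) {g : Fin a → Sn n} (hg : Dg b g) :
    DW e x F (fun j => shr n (ζ₁ • X i₀.succ.succ) (ζ₂ • X i₀.succ.succ) (g j)) =
      DW e x F g := by
  classical
  have hzm : ∀ ζ : ℂ, (ζ • (X i₀.succ.succ : Sn n)) ∈ ZZ n := fun ζ =>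
    (ZZ n).smul_mem _ (Submodule.subset_span ⟨i₀, rfl⟩)
  set ζ : ℂ := ζ₁ + x * ζ₂ with hζ
  have hg' : Dg b (fun j => shr n (ζ₁ • X i₀.succ.succ) (ζ₂ • X i₀.succ.succ) (g j)) :=
    fun j => shr_mem (hzm _) (hzm _) (hg j)
  set g' : Fin a → Sn n := fun j => shr n (ζ₁ • X i₀.succ.succ) (ζ₂ • X i₀.succ.succ) (g j)
    with hg'def
  have hkey : aeval (fun k => (X k + C (if k = i₀ then ζ else 0) : MvPolynomial (Fin n) ℂ))
      (PW x F g') = PW x F g := by
    apply MvPolynomial.funext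
    intro c
    have h1 : eval c (aeval (fun k => (X k + C (if k = i₀ then ζ else 0) :
        MvPolynomial (Fin n) ℂ)) (PW x F g')) =
          eval (fun k => c k + if k = i₀ then ζ else 0) (PW x F g') := by
      have h2 : ((aeval c : MvPolynomial (Fin n) ℂ →ₐ[ℂ] ℂ).comp
          (aeval (fun k => (X k + C (if k = i₀ then ζ else 0) : MvPolynomial (Fin n) ℂ)))) =
            aeval (fun k => c k + if k = i₀ then ζ else 0) := by
        apply MvPolynomial.algHom_ext
        intro k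
        rw [AlgHom.comp_apply, aeval_X, map_add, aeval_X, aeval_C, aeval_X]
        rfl
      have h3 := congrArg (fun f : MvPolynomial (Fin n) ℂ →ₐ[ℂ] ℂ => f (PW x F g')) h2
      exact h3
    rw [h1, eval_PW, eval_PW, ← hI _ (hzm ζ₁) _ (hzm ζ₂)
      (fun j => (ln n x + ∑ i, c i • X i.succ.succ) * g j) (by
      intro j
      rw [pow_succ']
      exact Submodule.mul_mem_mul (line_mem (zs_mem c) x) (hg j))]
    congr 1
    funext j
    rw [map_mul, map_add, shr_ln, shr_Z (zs_mem c), hg'def]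
    congr 1
    have h4 : ∀ i : Fin n, (c i + if i = i₀ then ζ else 0) • (X i.succ.succ : Sn n) =
        c i • X i.succ.succ + (if i = i₀ then ζ • (X i₀.succ.succ : Sn n) else 0) := by
      intro i
      by_cases hi : i = i₀
      · subst hi
        rw [if_pos rfl, if_pos rfl, add_smul]
      · rw [if_neg hi, if_neg hi, add_zero, add_zero]
    rw [Finset.sum_congr rfl (fun i _ => h4 i), Finset.sum_add_distrib, Finset.sum_ite_eq',
      if_pos (Finset.mem_univ _), smul_smul, ← add_smul, ← hζ]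
    abel
  have h5 := coeff_shift1 i₀ ζ (PW x F g') (Finsupp.equivFunOnFinite.symm e) (by
    intro d hd hne
    rw [coeff_PW]
    apply hz d _ _ g' hg'
    · intro i
      exact hd i
    · intro h
      apply hne
      ext i
      exact congrFun h i)
  rw [hkey, coeff_PW, coeff_PW] at h5
  exact h5.symm

/-- Invariance under all the shears from the shears of one variable. -/
lemma invF_of_one {a b : ℕ} (G : Fm n a)
    (h : ∀ (i : Fin n) (ζ₁ ζ₂ : ℂ) (P : Fin a → Sn n), Dg b P →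
      G (fun j => shr n (ζ₁ • X i.succ.succ) (ζ₂ • X i.succ.succ) (P j)) = G P) : InvF b G := by
  classical
  intro z hz w hw
  obtain ⟨c, rfl⟩ := ZZ_exists hz
  obtain ⟨d, rfl⟩ := ZZ_exists hw
  have main : ∀ s : Finset (Fin n), ∀ P : Fin a → Sn n, Dg b P →
      G (fun j => shr n (∑ i ∈ s, c i • X i.succ.succ) (∑ i ∈ s, d i • X i.succ.succ) (P j)) =
        G P := by
    intro s
    induction s using Finset.induction_on with
    | empty =>
      intro P _
      simp only [Finset.sum_empty, shr_zero_zero]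
    | insert i s hi ih =>
      intro P hP
      have hm : ∀ ζ : ℂ, (ζ • (X i.succ.succ : Sn n)) ∈ ZZ n := fun ζ =>
        (ZZ n).smul_mem _ (Submodule.subset_span ⟨i, rfl⟩)
      rw [Finset.sum_insert hi, Finset.sum_insert hi, shr_comp (hm _) (hm _)]
      have h1 := ih (fun j => shr n (c i • X i.succ.succ) (d i • X i.succ.succ) (P j))
        (fun j => shr_mem (hm _) (hm _) (hP j))
      rw [h i (c i) (d i) P hP] at h1
      exact h1
  exact main Finset.univ

/-- One step of the iteration. -/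
theorem stepJ2 {a b : ℕ} {w : Fin n → ℕ} {F : Fm n a} (hab : a ≤ b) (hsy : IsSymm F)
    (hI : InvF (b + 1) F) (hH : HomW (b + 1) w F) (hK : IsK (linS (n + 2)) (b + 1) F)
    (hV : ¬ Van (b + 1) F) : ∃ (e : Fin n → ℕ) (x : ℂ), e ≠ 0 ∧ IsSymm (DWm e x F) ∧
      InvF b (DWm e x F) ∧ HomW b (w - e) (DWm e x F) ∧ IsK (linS (n + 2)) b (DWm e x F) ∧
      ¬ Van b (DWm e x F) := by
  classical
  have hw : 1 ≤ ∑ i, w i := by
    by_contra hcon
    apply hV
    refine treeW (N := max 1 (a - 1)) (le_max_left _ _) ?_ ?_ F hsy hI.inv hH hK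
    · have : max 1 (a - 1) ≤ b + 1 := max_le (by omega) (by omega)
      omega
    · have := le_max_right 1 (a - 1)
      omega
  obtain ⟨e₀, hi₀, x₀, g₀, hg₀, h₀⟩ : ∃ e : Fin n → ℕ, (∃ i, 1 ≤ e i) ∧ ∃ (x : ℂ)
      (g : Fin a → Sn n), Dg b g ∧ DW e x F g ≠ 0 := by
    by_contra hcon
    push Not at hcon
    apply hV
    apply lemG2 a b w F hab hw hsy hI hH
    apply q2_of
    intro x c g hg
    apply q2_of_DW Finset.univ F _ x c g hg
    rintro e ⟨i, _, hi⟩ x g hg
    exact hcon e ⟨i, hi⟩ x g hg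
  let P : ℕ → Prop := fun s => ∃ e : Fin n → ℕ, ∑ i, e i = s ∧ ∃ (x : ℂ) (g : Fin a → Sn n),
    Dg b g ∧ DW e x F g ≠ 0
  have hP0 : P (∑ i, e₀ i) := ⟨e₀, rfl, x₀, g₀, hg₀, h₀⟩
  have hPa : ∀ s, P s → s ≤ a := by
    rintro s ⟨e, rfl, x, g, _, h⟩
    by_contra hcon
    exact h (DW_of_lt (by omega) x F g)
  have hs1 := Nat.findGreatest_spec (P := P) (hPa _ hP0) hP0
  have hs2 := Nat.le_findGreatest (P := P) (hPa _ hP0) hP0
  obtain ⟨e, he, x, g, hg, hne⟩ := hs1
  have hmax : ∀ s, Nat.findGreatest P a < s → ¬ P s := by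
    intro s hs hPs
    have := Nat.le_findGreatest (P := P) (hPa _ hPs) hPs
    omega
  have hpos : 1 ≤ ∑ i, e i := by
    obtain ⟨i, hi⟩ := hi₀
    have h1 : e₀ i ≤ ∑ i, e₀ i := Finset.single_le_sum (fun _ _ => Nat.zero_le _)
      (Finset.mem_univ i)
    omega
  have hew : e ≤ w := by
    by_contra hcon
    have h1 : ∃ i, w i < e i := by
      by_contra hcon'
      push Not at hcon'
      exact hcon hcon'
    obtain ⟨i₀, hi₀⟩ := h1
    exact hne (DW_zero_of_weight hH e i₀ hi₀ x hg)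
  refine ⟨e, x, ?_, DWm_symm e x hsy, ?_, DWm_homW hH e hew x, DWm_isK e x hK, ?_⟩
  · rintro rfl
    simp at hpos
  · apply invF_of_one
    intro i ζ₁ ζ₂ P hP
    rw [DWm_apply, DWm_apply]
    apply DW_shearF hI e x _ i ζ₁ ζ₂ hP
    intro d hd hne' g' hg'
    by_contra hcon
    refine hmax (∑ i, d i) ?_ ⟨d, rfl, x, g', hg', hcon⟩
    rw [← he]
    apply Finset.sum_lt_sum (fun i _ => hd i)
    by_contra hcon
    push Not at hcon
    apply hne'
    funext i
    exact le_antisymm (hcon i (Finset.mem_univ i)) (hd i)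
  · intro hv
    have h1 := hv g hg
    rw [DWm_apply] at h1
    exact hne h1

/-- **Iteration of Lemma G.** -/
theorem iterJ2 {a : ℕ} (k : ℕ) : ∀ (B : ℕ) (w : Fin n → ℕ) (F : Fm n a), a + k ≤ B →
    IsSymm F → InvF B F → HomW B w F → IsK (linS (n + 2)) B F → ¬ Van B F →
    ∃ l : List ((Fin n → ℕ) × ℂ), l.length = k ∧ (∀ p ∈ l, p.1 ≠ 0) ∧ IsSymm (DWs l F) ∧
      ¬ Van (B - k) (DWs l F) := by
  induction k with
  | zero =>
    intro B w F _ hsy _ _ _ hV
    exact ⟨[], rfl, fun p hp => absurd hp (by simp), hsy, hV⟩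
  | succ k ih =>
    intro B w F h1 hsy hI hH hK hV
    obtain ⟨b, rfl⟩ : ∃ b, B = b + 1 := ⟨B - 1, by omega⟩
    obtain ⟨e, x, he, h3, h4, h5, h6, h7⟩ := stepJ2 (by omega) hsy hI hH hK hV
    obtain ⟨l, hl1, hl2, hl3, hl4⟩ := ih b (w - e) (DWm e x F) (by omega) h3 h4 h5 h6 h7
    refine ⟨(e, x) :: l, by rw [List.length_cons, hl1], ?_, hl3, ?_⟩
    · intro p hp
      rcases List.mem_cons.1 hp with rfl | hp
      · exact he
      · exact hl2 p hp
    · have h8 : b + 1 - (k + 1) = b - k := by omega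
      rw [h8]
      exact hl4

end Vale.Agent.P181.G388
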