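import Vale.Agent.P181.G388.Iter2
import Vale.Agent.P181.H411.UFinal

/-!
P181, the upper bound for the kernel of the Foulkes-Howe map on highest weight vectors for all
`a ≤ b`: at least `b - a` letters with a cell in the rows from the third one on.
-/

set_option autoImplicit false

open scoped TensorProduct

namespace Vale.Agent.P181.G388

open MvPolynomial Vale.Agent.P181 Vale.Agent.P181.H536 Vale.Agent.P181.H280
  Vale.Agent.P181.H780 Vale.Agent.P181.TN Vale.Agent.P181.TW Vale.Agent.P181.H411.UB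

variable {n : ℕ}

/-- **Separation.** -/
theorem sep2 (hgen : Gen n) {a b t N : ℕ} {w : Fin n → ℕ} (F : Fm n a) (hsy : IsSymm F)
    (hI : InvF b F) (hH : HomW b w F) (hK : IsK (linS (n + 2)) b F) (ht : a + t ≤ b)
    (hN : ∀ P : Af n, constantCoeff P = 1 → ∃ m : Fin N → Af n, (∀ j, (m j).IsHomogeneous 1) ∧
      ∀ x : Fin (n + 1) →₀ ℕ, x.degree ≤ b → coeff x (∏ j, (1 + m j)) = coeff x P)
    (h0 : ∀ v : Fin (t + N) → Fin (n + 1) → ℕ,
      t ≤ (Finset.univ.filter (fun j => ∃ i : Fin n, v j i.succ ≠ 0)).card → cf b v F = 0) :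
    Van b F := by
  classical
  by_contra hV
  obtain ⟨l, hl, hl0, hls, hlV⟩ := iterJ2 t b w F ht hsy hI hH hK hV
  obtain ⟨h, hh, hc, hne⟩ := exists_const_one _ hls hlV
  obtain ⟨m, hm1, hm2⟩ := hN (dh n h) hc
  choose y' hy' using fun j => exists_coord (hm1 j)
  apply hne
  subst hl
  let y : (ℕ → Fin n → ℂ) → Fin (l.length + N) → Fin (n + 1) → ℂ :=
    fun c => Fin.append (fun i : Fin l.length => y1 l c i) y'
  apply dws_zero l (Fintype.piFinset (fun _ : Fin (l.length + N) => bx (n + 1) a))
    (fun v i => if hi : i < l.length then fun j => v (Fin.castAdd N ⟨i, hi⟩) j.succ else 0)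
    (fun v => (∏ i : Fin l.length, xs l i ^ v (Fin.castAdd N i) 0) *
      (∏ j : Fin N, ∏ i, y' j i ^ v (Fin.natAdd l.length j) i) * cf b v F) F (fun _ => h) hl0
  · intro v _ hv
    rw [h0 v, mul_zero]
    have h1 : (Finset.univ : Finset (Fin l.length)).map (Fin.castAddEmb N) ⊆
        Finset.univ.filter (fun j => ∃ i : Fin n, v j i.succ ≠ 0) := by
      intro j hj
      obtain ⟨i, _, rfl⟩ := Finset.mem_map.1 hj
      rw [Finset.mem_filter]
      refine ⟨Finset.mem_univ _, ?_⟩
      have h2 := hv i i.2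
      rw [dif_pos i.2] at h2
      by_contra hcon
      push Not at hcon
      apply h2
      funext k
      exact hcon k
    have h3 := Finset.card_le_card h1
    rw [Finset.card_map, Finset.card_univ, Fintype.card_fin] at h3
    exact h3
  · intro c
    have e1 : (fun _ : Fin a => lp l c * h) =
        fun _ => hom n b (∏ j, (1 + ∑ i, y c j i • (X i : Af n))) := by
      funext _
      have e2 : lp l c * h ∈ linS (n + 2) ^ b := by
        have e3 : linS (n + 2) ^ b = linS (n + 2) ^ l.length * linS (n + 2) ^ (b - l.length) := by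
          rw [← pow_add]
          congr 1
          omega
        rw [e3]
        exact Submodule.mul_mem_mul (lp_mem l c) hh
      rw [← hom_dh e2, map_mul]
      rw [hom_congr b _ _ (mul_congr_deg b (dh n (lp l c)) (dh n h) (∏ j, (1 + m j))
        (fun μ hμ => (hm2 μ hμ).symm))]
      congr 1
      rw [Fin.prod_univ_add, dh_lp, Finset.prod_range]
      congr 1
      · apply Finset.prod_congr rfl
        intro i _
        simp only [y, Fin.append_left]
      · apply Finset.prod_congr rfl
        intro j _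
        simp only [y, Fin.append_right]
        rw [← hy']
    rw [e1, hgen]
    apply Finset.sum_congr rfl
    intro v _
    rw [Fin.prod_univ_add]
    have e4 : ∏ i : Fin l.length, ∏ k, y c (Fin.castAdd N i) k ^ v (Fin.castAdd N i) k =
        (∏ i : Fin l.length, xs l i ^ v (Fin.castAdd N i) 0) *
          ∏ i ∈ Finset.range l.length, ∏ j, c i j ^
            (if hi : i < l.length then fun j : Fin n => v (Fin.castAdd N ⟨i, hi⟩) j.succ else 0) j := by
      rw [Finset.prod_range, ← Finset.prod_mul_distrib]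
      apply Finset.prod_congr rfl
      intro i _
      rw [Fin.prod_univ_succ, dif_pos i.2]
      simp only [y, Fin.append_left, y1, Fin.cons_zero, Fin.cons_succ]
    have e5 : ∏ j : Fin N, ∏ k, y c (Fin.natAdd l.length j) k ^ v (Fin.natAdd l.length j) k =
        ∏ j : Fin N, ∏ i, y' j i ^ v (Fin.natAdd l.length j) i := by
      simp only [y, Fin.append_right]
    rw [e4, e5]
    ring

/-- **The upper bound for the kernel.** -/
theorem kernel_le2_of_gen (hgen : Gen n) {a b t : ℕ} (lam : Fin (n + 2) → ℕ)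
    (ht : a + t ≤ b) :
    Module.finrank ℂ ↥(LinearMap.ker (foulkesHowe a b (Fin (n + 2) → ℂ)) ⊓
      hwSpace lam (plethAct a b (n + 2)) : Submodule ℂ (Pleth a b (n + 2))) ≤
    Set.ncard {M : Multiset (Fin (n + 1) → ℕ) |
      (∀ v ∈ M, v ≠ 0 ∧ ∑ i, v i ≤ a) ∧ M.sum = (fun i => lam i.succ) ∧
        t ≤ (M.filter fun v => ∃ i : Fin n, v i.succ ≠ 0).card} := by
  classical
  obtain ⟨g, hg⟩ := exists_lin a b (n + 2)
  obtain ⟨N, hN⟩ := Z.H663.exists_prod_unif (Fin (n + 1)) b
  set K : Submodule ℂ (Pleth a b (n + 2)) := LinearMap.ker (foulkesHowe a b (Fin (n + 2) → ℂ)) ⊓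
    hwSpace lam (plethAct a b (n + 2)) with hK
  letI := Module.addCommMonoidToAddCommGroup ℂ (M := K)
  let fm : K →ₗ[ℂ] Fm n a := formL a b (n + 2) ∘ₗ g ∘ₗ K.subtype
  have hfm : ∀ x : K, fm x = formOf (g x.1) := fun x => rfl
  refine Z.H663.finrank_le_ncard (N := t + N) (K := K) (fun i => lam i.succ)
    (fun v => cfL b v ∘ₗ fm) ?_ ?_ ?_ ?_
  · intro σ v
    apply LinearMap.ext
    intro x
    exact cf_perm b v (fm x) σ
  · intro v hv
    obtain ⟨x, hx⟩ : ∃ x, (cfL b v ∘ₗ fm) x ≠ 0 := by
      by_contra hcon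
      push Not at hcon
      exact hv (LinearMap.ext hcon)
    exact cf_deg hx
  · intro v hv
    obtain ⟨x, hx⟩ : ∃ x, (cfL b v ∘ₗ fm) x ≠ 0 := by
      by_contra hcon
      push Not at hcon
      exact hv (LinearMap.ext hcon)
    have h1 : elOf (g x.1) ∈ hwSpace lam (plethAct a b (n + 2)) :=
      (congrArg (fun y : Pleth a b (n + 2) => y ∈ hwSpace lam (plethAct a b (n + 2)))
        (hg x.1)).mpr x.2.2
    exact cf_weight lam (g x.1) h1 hx
  · intro x hx
    have h1 : elOf (g x.1) ∈ hwSpace lam (plethAct a b (n + 2)) :=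
      (congrArg (fun y : Pleth a b (n + 2) => y ∈ hwSpace lam (plethAct a b (n + 2)))
        (hg x.1)).mpr x.2.2
    have h2 : foulkesHowe a b (Fin (n + 2) → ℂ) (elOf (g x.1)) = 0 :=
      (congrArg (foulkesHowe a b (Fin (n + 2) → ℂ)) (hg x.1)).trans x.2.1
    have h3 : Van b (formOf (g x.1)) := by
      apply sep2 hgen (t := t) (N := N) (w := fun i => lam i.succ.succ) (formOf (g x.1))
        (formOf_symm _) ?_ (H72.formOf_scw lam _ h1) (isK_formOf _ h2) ht hN
      · intro v hv
        exact hx v hv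
      · intro z hz w hw P hP
        exact formOf_shear (n := n) lam (g x.1) h1 (shr n z w)
          ⟨fun _ hz' => G388.shr_Z hz', fun _ hu => G388.shr_U_sub hz hw hu⟩ P hP
    have h4 : elOf (g x.1) = 0 := elOf_eq_zero (g x.1) h3
    exact Subtype.ext ((hg x.1).symm.trans h4)

/-- **The upper bound for the kernel, all `a ≤ b`.** The multiplicity of `lam` in the kernel of
the Foulkes-Howe map is at most the number of multisets of nonzero letters of total weight
`lam 1, lam 2, ..` with at least `t` letters with a cell in the rows from the third one on, for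
every `t ≤ b - a`. -/
theorem kernel_le2 {a b t : ℕ} (lam : Fin (n + 2) → ℕ) (ht : a + t ≤ b) :
    Module.finrank ℂ ↥(LinearMap.ker (foulkesHowe a b (Fin (n + 2) → ℂ)) ⊓
      hwSpace lam (plethAct a b (n + 2)) : Submodule ℂ (Pleth a b (n + 2))) ≤
    Set.ncard {M : Multiset (Fin (n + 1) → ℕ) |
      (∀ v ∈ M, v ≠ 0 ∧ ∑ i, v i ≤ a) ∧ M.sum = (fun i => lam i.succ) ∧
        t ≤ (M.filter fun v => ∃ i : Fin n, v i.succ ≠ 0).card} :=
  kernel_le2_of_gen (fun b _ _ F y => gen b F y) lam ht

end Vale.Agent.P181.G388
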