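import Vale.Agent.P181.G388.TopC

/-!
P181, Lemma G for all `a ≤ b`: a symmetric form in `a` polynomials of degree `b + 1` of positive
weight which is invariant under all shears and does not see the part in the last variables of a
common linear factor vanishes.
-/

set_option autoImplicit false

open MvPolynomial

namespace Vale.Agent.P181.G388

open Vale.Agent.P181 Vale.Agent.P181.H536 Vale.Agent.P181.H280 Vale.Agent.P181.TN
  Vale.Agent.P181.TW Vale.Agent.P181.R2.H866 Vale.Agent.P181.H72 Vale.Agent.P181.H411.LemG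

variable {n : ℕ}

lemma shr_U_sub {z z' : Sn n} (hz : z ∈ ZZ n) (hz' : z' ∈ ZZ n) {u : Sn n} (hu : u ∈ U2 n) :
    shr n z z' u - u ∈ ZZ n := by
  obtain ⟨α, β, rfl⟩ := Submodule.mem_span_pair.1 hu
  rw [map_add, map_smul, map_smul, shr_zero, shr_one]
  have h1 : α • ((X 0 : Sn n) + z) + β • (X 1 + z') - (α • X 0 + β • X 1) = α • z + β • z' := by
    rw [smul_add, smul_add]; abel
  rw [h1]
  exact (ZZ n).add_mem ((ZZ n).smul_mem _ hz) ((ZZ n).smul_mem _ hz')

lemma shr_U_mem {z z' : Sn n} (hz : z ∈ ZZ n) (hz' : z' ∈ ZZ n) {u : Sn n} (hu : u ∈ U2 n) :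
    shr n z z' u ∈ linS (n + 2) := by
  have h1 := (linS (n + 2)).add_mem (ZZ_le (shr_U_sub hz hz' hu)) (U2_le hu)
  rwa [sub_add_cancel] at h1

lemma shr_Z {z z' y : Sn n} (hy : y ∈ ZZ n) : shr n z z' y = y := by
  rw [ZZ] at hy
  induction hy using Submodule.span_induction with
  | mem x hx =>
    obtain ⟨i, rfl⟩ := hx
    exact shr_succ z z' i
  | zero => rw [map_zero]
  | add x y _ _ hx hy => rw [map_add, hx, hy]
  | smul c x _ hx => rw [map_smul, hx]

lemma shr_ZZ_pow {z z' : Sn n} {k : ℕ} {w : Sn n} (hw : w ∈ ZZ n ^ k) : shr n z z' w = w := by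
  induction k generalizing w with
  | zero =>
    rw [pow_zero, Submodule.mem_one] at hw
    obtain ⟨r, rfl⟩ := hw
    exact AlgHom.commutes _ _
  | succ k ih =>
    rw [pow_succ] at hw
    induction hw using Submodule.mul_induction_on' with
    | mem_mul_mem x hx y hy => rw [map_mul, ih hx, shr_Z hy]
    | add x _ y _ hx hy => rw [map_add, hx, hy]

lemma shr_mem {d : ℕ} {z z' : Sn n} (hz : z ∈ ZZ n) (hz' : z' ∈ ZZ n) {P : Sn n}
    (hP : P ∈ linS (n + 2) ^ d) : shr n z z' P ∈ linS (n + 2) ^ d := by
  have h1 : (linS (n + 2) ^ d).map (shr n z z').toLinearMap ≤ linS (n + 2) ^ d := by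
    rw [Submodule.map_pow]
    apply pow_le_pow_left'
    rw [linS_eq, Submodule.map_sup, sup_le_iff]
    constructor
    · rintro _ ⟨u, hu, rfl⟩
      rw [← linS_eq]
      exact shr_U_mem hz hz' hu
    · rintro _ ⟨y, hy, rfl⟩
      change shr n z z' y ∈ _
      rw [shr_Z hy]
      exact Submodule.mem_sup_right hy
  exact h1 ⟨P, hP, rfl⟩

/-- A shear changes a polynomial in the first two variables by a multiple of the others. -/
lemma shr_sub_mem {z z' : Sn n} (hz : z ∈ ZZ n) (hz' : z' ∈ ZZ n) (N : ℕ) : ∀ A ∈ U2 n ^ N,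
    shr n z z' A - A ∈ ZZ n * linS (n + 2) ^ (N - 1) := by
  induction N with
  | zero =>
    intro A hA
    rw [pow_zero, Submodule.mem_one] at hA
    obtain ⟨r, rfl⟩ := hA
    rw [AlgHom.commutes, sub_self]
    exact Submodule.zero_mem _
  | succ N ih =>
    intro A hA
    rw [pow_succ] at hA
    rw [Nat.add_sub_cancel]
    induction hA using Submodule.mul_induction_on' with
    | mem_mul_mem x hx y hy =>
      have h1 : shr n z z' (x * y) - x * y =
          (shr n z z' x - x) * shr n z z' y + (shr n z z' y - y) * x := by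
        rw [map_mul]; ring
      rw [h1]
      refine Submodule.add_mem _ ?_ (Submodule.mul_mem_mul (shr_U_sub hz hz' hy)
        (pow_le_pow_left' U2_le _ hx))
      rcases Nat.eq_zero_or_pos N with rfl | hN
      · have h2 : shr n z z' x - x = 0 := by
          rw [pow_zero, Submodule.mem_one] at hx
          obtain ⟨r, rfl⟩ := hx
          rw [AlgHom.commutes, sub_self]
        rw [h2, zero_mul]
        exact Submodule.zero_mem _
      · have h3 := Submodule.mul_mem_mul (ih x hx) (shr_U_mem hz hz' hy)
        have h4 : ZZ n * linS (n + 2) ^ (N - 1) * linS (n + 2) = ZZ n * linS (n + 2) ^ N := by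
          rw [mul_assoc, ← pow_succ]
          congr 2
          omega
        rwa [h4] at h3
    | add x _ y _ hx hy =>
      have h1 : shr n z z' (x + y) - (x + y) =
          (shr n z z' x - x) + (shr n z z' y - y) := by
        rw [map_add]; ring
      rw [h1]
      exact Submodule.add_mem _ hx hy

/-- Full invariance of the form at the top exponent. -/
theorem curry_invF {m B κ : ℕ} {F : Fm n (m + 1)} (hI : InvF B F) (hTop : Top B κ F) (hκ : κ ≤ B)
    {v : Sn n} (hv : v ∈ ZZ n ^ κ) {A : Sn n} (hA : A ∈ U2 n ^ (B - κ)) :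
    InvF B (F.curryLeft (v * A)) := by
  intro z hz z' hz' P hP
  have h1 := hI z hz z' hz' (Fin.cons (v * A) P) (cons_Dg (wA_mem hκ hv hA) hP)
  have h2 : (fun i : Fin (m + 1) => shr n z z' ((Fin.cons (v * A) P : Fin (m + 1) → Sn n) i)) =
      Fin.cons (shr n z z' (v * A)) (fun i => shr n z z' (P i)) := by
    funext i
    refine Fin.cases ?_ (fun j => ?_) i
    · simp only [Fin.cons_zero]
    · simp only [Fin.cons_succ]
  rw [h2, ← MultilinearMap.curryLeft_apply, ← MultilinearMap.curryLeft_apply] at h1
  have h3 : shr n z z' (v * A) = v * A + v * (shr n z z' A - A) := by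
    rw [map_mul, shr_ZZ_pow hv]; ring
  rw [h3, map_add, add_apply] at h1
  rw [← h1]
  have h4 : ∀ y ∈ ZZ n * linS (n + 2) ^ (B - κ - 1), B - κ ≠ 0 →
      F.curryLeft (v * y) (fun i => shr n z z' (P i)) = 0 := by
    intro y hy hBκ
    induction hy using Submodule.mul_induction_on' with
    | mem_mul_mem z₁ hz₁ y₁ hy₁ =>
      let W : Submodule ℂ (Sn n) :=
        LinearMap.ker ({ toFun := fun u => F.curryLeft (v * (z₁ * u)) (fun i => shr n z z' (P i))
                         map_add' := fun x y => by rw [mul_add, mul_add, map_add]; rfl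
                         map_smul' := fun c x => by
                           rw [mul_smul_comm, mul_smul_comm, map_smul]; rfl } : Sn n →ₗ[ℂ] ℂ)
      have h5 : linS (n + 2) ^ (B - κ - 1) ≤ W := by
        apply linS_pow_le
        intro k hk v' hv' A' hA'
        change F.curryLeft (v * (z₁ * (v' * A'))) (fun i => shr n z z' (P i)) = 0
        have h6 : v * (z₁ * (v' * A')) = (v * z₁ * v') * A' := by ring
        rw [h6]
        apply hTop (κ + 1 + k) (by omega) (by omega) _ ?_ A' ?_ _
          (fun i => shr_mem hz hz' (hP i))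
        · rw [pow_add, pow_add, pow_one]
          exact Submodule.mul_mem_mul (Submodule.mul_mem_mul hv hz₁) hv'
        · have h7 : B - (κ + 1 + k) = B - κ - 1 - k := by omega
          rw [h7]
          exact hA'
      exact h5 hy₁
    | add x _ y _ hx hy => rw [mul_add, map_add, add_apply, hx, hy, add_zero]
  by_cases hBκ : B - κ = 0
  · have h5 : shr n z z' A - A = 0 := by
      rw [hBκ, pow_zero, Submodule.mem_one] at hA
      obtain ⟨r, rfl⟩ := hA
      rw [AlgHom.commutes, sub_self]
    rw [h5, mul_zero, map_zero, zero_apply, add_zero]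
  · rw [h4 _ (shr_sub_mem hz hz' _ A hA) hBκ, add_zero]

/-- A form of weight `0` lies in the kernel if it does on the first two variables. -/
theorem isK_of_hom0 {m B : ℕ} {G : Fm n m} (hG : Hom B 0 G)
    (h : ∀ x : Fin B → ℂ, G (fun _ => ∏ j, ln n (x j)) = 0) : IsK (linS (n + 2)) B G := by
  apply isK_of_chart
  intro x z hz
  obtain ⟨p, hp⟩ := poly_exists G (fun _ => ∏ j, (Polynomial.C (ln n (x j)) +
    Polynomial.X * Polynomial.C (z j)))
  have hp' : ∀ c : ℂ, p.eval c = G (fun _ => ∏ j, (ln n (x j) + c • z j)) := by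
    intro c
    rw [hp]
    congr 1
    funext _
    rw [Polynomial.eval_prod]
    apply Finset.prod_congr rfl
    intro j _
    exact eval_lin c _ _
  have hPD : ∏ j, (ln n (x j) + z j) ∈ linS (n + 2) ^ B := by
    have h3 := H240.prod_mem_pow_card (linS (n + 2)) (Finset.univ : Finset (Fin B))
      (fun j => ln n (x j) + z j) (fun j => line_mem (hz j) _)
    rwa [Finset.card_univ, Fintype.card_fin] at h3
  have hpc : p = Polynomial.C (G (fun _ => ∏ j, (ln n (x j) + z j))) := by
    apply Polynomial.eq_of_infinite_eval_eq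
    apply Set.Infinite.mono (s := ({0} : Set ℂ)ᶜ)
    · intro c hc
      rw [Set.mem_ofPred_eq, hp', Polynomial.eval_C]
      have h1 := hG c hc (fun _ => ∏ j, (ln n (x j) + z j)) (fun _ => hPD)
      rw [pow_zero, one_mul] at h1
      rw [← h1]
      congr 1
      funext _
      rw [map_prod]
      apply Finset.prod_congr rfl
      intro j _
      rw [map_add, scal_ln, scal_Z (hz j)]
    · exact (Set.finite_singleton _).infinite_compl
  have h1 := hp' 0
  rw [hpc, Polynomial.eval_C] at h1
  rw [h1]
  have h2 : (fun _ : Fin m => ∏ j, (ln n (x j) + (0 : ℂ) • z j)) =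
      fun _ => ∏ j, ln n (x j) := by
    funext _
    apply Finset.prod_congr rfl
    intro j _
    rw [zero_smul, add_zero]
  rw [h2]
  exact h x

/-- **Lemma G for all `a ≤ b`.** -/
theorem lemG2 (a : ℕ) : ∀ (b : ℕ) (w : Fin n → ℕ) (F : Fm n a), a ≤ b → 1 ≤ ∑ i, w i →
    IsSymm F → InvF (b + 1) F → HomW (b + 1) w F → Q2 Finset.univ b F → Van (b + 1) F := by
  classical
  induction a with
  | zero =>
    intro b w F _ hw _ _ hH _ P hP
    have h4 := hH (fun _ => 2) (fun _ => two_ne_zero) P hP
    have h5 : (fun i => scw (fun _ => (2 : ℂ)) (P i)) = P := Subsingleton.elim _ _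
    rw [h5, Finset.prod_pow_eq_pow_sum] at h4
    have h6 : ((2 : ℂ) ^ (∑ i, w i) - 1) * F P = 0 := by
      rw [sub_mul, one_mul, ← h4, sub_self]
    refine (mul_eq_zero.1 h6).resolve_left ?_
    intro h7
    rw [sub_eq_zero] at h7
    have h8 : (2 : ℕ) ^ (∑ i, w i) = 2 ^ 0 := by exact_mod_cast h7
    have h9 := Nat.pow_right_injective le_rfl h8
    omega
  | succ m ih =>
    intro b w F hab hw hsy hI hH hQ
    by_cases hwm : ∑ i, w i ≤ 2 ∧ 1 ≤ m
    · exact treeW (N := m) hwm.2 (by omega) le_rfl F hsy hI.inv hH (isK_of_q2 hH hw hQ)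
    set B := b + 1 with hB
    let O : ℕ → Prop := fun κ => κ ≤ B → ∀ v ∈ ZZ n ^ κ, ∀ A ∈ U2 n ^ (B - κ),
      Van B (F.curryLeft (v * A))
    have step : ∀ κ, κ ≤ B → (∀ κ', κ < κ' → κ' ≤ B → O κ') → O κ := by
      intro κ hκ hO _ v hv A hA
      have hTop : Top B κ F := fun j hj hjB v hv A hA => hO j hj hjB hjB v hv A hA
      apply van_curry_of_mz F A _ hv
      intro r hr
      have hAr : A ∈ U2 n ^ (B - ∑ i, r i) := by rwa [hr]
      by_cases hrw : r ≤ w
      swap
      · exact curry_zeroW (by omega) hrw F hH hAr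
      have hmz : mz r ∈ ZZ n ^ κ := by
        have h := mz_mem r
        rwa [hr] at h
      have hInv : InvF B (F.curryLeft (mz r * A)) := curry_invF hI hTop hκ hmz hA
      have hHW : HomW B (w - r) (F.curryLeft (mz r * A)) := curry_homW (by omega) hrw F hH hAr
      have hsum : ∑ i, w i = ∑ i, (w - r) i + ∑ i, r i := by
        rw [← Finset.sum_add_distrib]
        apply Finset.sum_congr rfl
        intro i _
        have h5 : r i ≤ w i := hrw i
        rw [Pi.sub_apply]
        omega
      by_cases hpos : 1 ≤ ∑ i, (w - r) i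
      · apply ih b (w - r) (F.curryLeft (mz r * A)) (by omega) hpos (hsy.curryLeft _) hInv hHW
        exact q2_top hH.hom hQ (by omega) hTop hκ hmz hA
      · have hK : IsK (linS (n + 2)) B (F.curryLeft (mz r * A)) := by
          by_cases hκm : m + 1 ≤ κ
          · have hmzS : mz r ∈ ZS (Finset.univ : Finset (Fin n)) ^ κ := by
              have h := mz_mem_ZS Finset.univ r (fun i hi => absurd (Finset.mem_univ i) hi)
              rwa [hr] at h
            exact heavy_isK hQ hκm hκ hmzS (pow_le_pow_left' U2_le _ hA)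
          · have hκ3 : 3 ≤ κ := by
              by_contra hcon
              apply hwm
              constructor <;> omega
            have hhom : Hom B 0 (F.curryLeft (mz r * A)) := by
              have h := hHW.hom
              have h0 : ∑ i, (w - r) i = 0 := by omega
              rwa [h0] at h
            apply isK_of_hom0 hhom
            intro x
            exact top_diag hI hQ hr hκ3 hκ hA x
        rcases Nat.eq_zero_or_pos m with rfl | hm
        · exact zeroW n B (w - r) _ (hsy.curryLeft _) hInv.inv hHW hK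
        · exact treeW (N := m) hm (by omega) (by omega) _ (hsy.curryLeft _) hInv.inv hHW hK
    have all : ∀ d κ, κ ≤ B → B - κ ≤ d → O κ := by
      intro d
      induction d with
      | zero =>
        intro κ hκ hd
        exact step κ hκ fun κ' h1 h2 => absurd h2 (by omega)
      | succ d ih =>
        intro κ hκ hd
        exact step κ hκ fun κ' h1 h2 => ih κ' h2 (by omega)
    intro P hP
    let W : Submodule ℂ (Sn n) :=
      LinearMap.ker ({ toFun := fun u => F.curryLeft u (fun i => P i.succ)
                       map_add' := fun x y => by rw [map_add]; rfl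
                       map_smul' := fun c x => by rw [map_smul]; rfl } : Sn n →ₗ[ℂ] ℂ)
    have h2 : linS (n + 2) ^ B ≤ W := by
      apply linS_pow_le
      intro k hk v hv A hA
      exact all B k hk (by omega) hk v hv A hA (fun i => P i.succ) (fun i => hP i.succ)
    have h3 : F.curryLeft (P 0) (fun i => P i.succ) = 0 := h2 (hP 0)
    rw [MultilinearMap.curryLeft_apply] at h3
    rw [← h3]
    congr 1
    funext i
    refine Fin.cases ?_ (fun i => ?_) i
    · rfl
    · rfl

end Vale.Agent.P181.G388
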