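import Vale.Agent.P181.G388.TopQ
import Mathlib.Algebra.MvPolynomial.PDeriv

/-!
P181: the form at the full exponent of the first argument. If the weight `t` is not `2` then a
form which is invariant under all shears and has `Q2` vanishes at `z ^ t A, f, …, f`.
-/

set_option autoImplicit false

open MvPolynomial

namespace Vale.Agent.P181.G388

open Vale.Agent.P181 Vale.Agent.P181.H536 Vale.Agent.P181.H280 Vale.Agent.P181.TN
  Vale.Agent.P181.TW Vale.Agent.P181.R2.H866 Vale.Agent.P181.H72

section General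

variable {A : Type*} [CommRing A] [Algebra ℂ A]

/-- The first order term of a form along polynomial curves. -/
theorem coeff_one_curve {a : ℕ} (F : ML A a) (R : Fin a → Polynomial A) (c : ℂ)
    (h : ∀ t : ℂ, F (fun i => (R i).eval (algebraMap ℂ A t)) = c) :
    ∑ i, F (Function.update (fun j => (R j).coeff 0) i ((R i).coeff 1)) = 0 := by
  classical
  let d : Fin a → ℕ := fun i => (R i).natDegree + 1
  let P : Polynomial ℂ := ∑ r ∈ Fintype.piFinset (fun i => Finset.range (d i + 1)),
    Polynomial.C (F (fun i => (R i).coeff (r i))) * Polynomial.X ^ (∑ i, r i)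
  have hP : P = Polynomial.C c := by
    apply Polynomial.funext
    intro η
    rw [Polynomial.eval_C, ← h η]
    have h1 : (fun i => (R i).eval (algebraMap ℂ A η)) =
        fun i => ∑ l ∈ Finset.range (d i + 1), η ^ l • (R i).coeff l := by
      funext i
      rw [Polynomial.eval_eq_sum_range' (n := d i + 1) (by
        change (R i).natDegree < (R i).natDegree + 1 + 1
        omega)]
      apply Finset.sum_congr rfl
      intro l _
      rw [Algebra.smul_def, map_pow, mul_comm]
    rw [h1, MultilinearMap.map_sum_finset]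
    simp only [P]
    rw [Polynomial.eval_finsetSum]
    apply Finset.sum_congr rfl
    intro r _
    rw [MultilinearMap.map_smul_univ, Polynomial.eval_mul, Polynomial.eval_C,
      Polynomial.eval_pow, Polynomial.eval_X, smul_eq_mul, Finset.prod_pow_eq_pow_sum, mul_comm]
  have h1 : P.coeff 1 = 0 := by
    rw [hP, Polynomial.coeff_C]
    simp
  have h2 : P.coeff 1 = ∑ r ∈ (Fintype.piFinset (fun i => Finset.range (d i + 1))).filter
      (fun r => ∑ i, r i = 1), F (fun i => (R i).coeff (r i)) := by
    simp only [P]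
    rw [Polynomial.finsetSum_coeff, Finset.sum_filter]
    apply Finset.sum_congr rfl
    intro r _
    rw [Polynomial.coeff_C_mul, Polynomial.coeff_X_pow]
    by_cases hr : ∑ i, r i = 1
    · rw [if_pos hr, if_pos hr.symm, mul_one]
    · rw [if_neg hr, if_neg (fun h => hr h.symm), mul_zero]
  rw [h1] at h2
  rw [h2]
  refine Finset.sum_bij (fun i _ => (Pi.single i 1 : Fin a → ℕ)) ?_ ?_ ?_ ?_
  · intro i _
    rw [Finset.mem_filter, Fintype.mem_piFinset]
    refine ⟨fun j => ?_, ?_⟩
    · rw [Finset.mem_range]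
      by_cases hj : j = i
      · subst hj
        rw [Pi.single_eq_same]
        change 1 < (R j).natDegree + 1 + 1
        omega
      · rw [Pi.single_eq_of_ne hj]
        omega
    · rw [Finset.sum_pi_single']
      simp
  · intro i _ j _ hij
    by_contra hne
    have h3 := congrFun hij i
    rw [Pi.single_eq_same, Pi.single_eq_of_ne hne] at h3
    exact one_ne_zero h3
  · intro r hr
    rw [Finset.mem_filter] at hr
    have hr1 := hr.2
    obtain ⟨i, -, hi⟩ : ∃ i ∈ Finset.univ, r i ≠ 0 := by
      by_contra hcon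
      push Not at hcon
      rw [Finset.sum_eq_zero hcon] at hr1
      exact zero_ne_one hr1
    refine ⟨i, Finset.mem_univ i, ?_⟩
    rw [← Finset.add_sum_erase _ _ (Finset.mem_univ i)] at hr1
    have h4 : ∑ j ∈ Finset.univ.erase i, r j = 0 := by omega
    funext j
    by_cases hj : j = i
    · subst hj
      rw [Pi.single_eq_same]
      omega
    · rw [Pi.single_eq_of_ne hj]
      exact ((Finset.sum_eq_zero_iff.1 h4) j (Finset.mem_erase.2 ⟨hj, Finset.mem_univ j⟩)).symm
  · intro i _
    congr 1
    funext j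
    by_cases hj : j = i
    · subst hj
      rw [Function.update_self, Pi.single_eq_same]
    · rw [Function.update_of_ne hj, Pi.single_eq_of_ne hj]

end General

variable {n : ℕ}

/-- Invariance under all shears `X 0 ↦ X 0 + z`, `X 1 ↦ X 1 + w` in degree `b`. -/
def InvF (b : ℕ) {n a : ℕ} (F : Fm n a) : Prop :=
  ∀ z ∈ ZZ n, ∀ w ∈ ZZ n, ∀ P : Fin a → Sn n, Dg b P → F (fun i => shr n z w (P i)) = F P

lemma InvF.inv {b a : ℕ} {F : Fm n a} (h : InvF b F) : Inv b F :=
  fun z hz P hP => h z hz 0 (Submodule.zero_mem _) P hP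

/-- The polynomial curve of shears. -/
noncomputable def shc (n : ℕ) (z : Sn n) (α β : ℂ) : Sn n →ₐ[ℂ] Polynomial (Sn n) :=
  aeval (Fin.cons (Polynomial.C (X 0) + Polynomial.X * Polynomial.C (α • z))
    (Fin.cons (Polynomial.C (X 1) + Polynomial.X * Polynomial.C (β • z))
      (fun i : Fin n => Polynomial.C (X i.succ.succ))))

lemma shc_X0 (z : Sn n) (α β : ℂ) :
    shc n z α β (X 0) = Polynomial.C (X 0) + Polynomial.X * Polynomial.C (α • z) := by
  rw [shc, aeval_X, Fin.cons_zero]

lemma shc_X1 (z : Sn n) (α β : ℂ) :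
    shc n z α β (X 1) = Polynomial.C (X 1) + Polynomial.X * Polynomial.C (β • z) := by
  rw [shc, aeval_X]
  rfl

lemma shc_Xs (z : Sn n) (α β : ℂ) (i : Fin n) :
    shc n z α β (X i.succ.succ) = Polynomial.C (X i.succ.succ) := by
  rw [shc, aeval_X, Fin.cons_succ, Fin.cons_succ]

lemma eval_lin (t : ℂ) (x y : Sn n) :
    (Polynomial.C x + Polynomial.X * Polynomial.C y).eval (algebraMap ℂ (Sn n) t) =
      x + t • y := by
  rw [Polynomial.eval_add, Polynomial.eval_mul, Polynomial.eval_C, Polynomial.eval_C,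
    Polynomial.eval_X, Algebra.smul_def]

lemma shc_eval (z : Sn n) (α β t : ℂ) (x : Sn n) :
    (shc n z α β x).eval (algebraMap ℂ (Sn n) t) = shr n (t • α • z) (t • β • z) x := by
  induction x using MvPolynomial.induction_on with
  | C a =>
    rw [show (C a : Sn n) = algebraMap ℂ (Sn n) a from rfl, AlgHom.commutes, AlgHom.commutes]
    rw [show algebraMap ℂ (Polynomial (Sn n)) a = Polynomial.C (algebraMap ℂ (Sn n) a) from rfl,
      Polynomial.eval_C]
  | add p q hp hq => rw [map_add, map_add, Polynomial.eval_add, hp, hq]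
  | mul_X p i hp =>
    rw [map_mul, map_mul, Polynomial.eval_mul, hp]
    congr 1
    refine Fin.cases ?_ (fun i => ?_) i
    · rw [shc_X0, eval_lin, shr_zero]
    · refine Fin.cases ?_ (fun i => ?_) i
      · have h1 : (X (Fin.succ 0) : Sn n) = X 1 := rfl
        rw [h1, shc_X1, eval_lin, shr_one]
      · rw [shc_Xs, Polynomial.eval_C, shr_succ]

/-- The derivation of a shear. -/
noncomputable def dv (α β : ℂ) (x : Sn n) : Sn n := α • pderiv 0 x + β • pderiv 1 x

lemma dv_mul (α β : ℂ) (x y : Sn n) : dv α β (x * y) = x * dv α β y + y * dv α β x := by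
  simp only [dv, Derivation.leibniz, smul_eq_mul, Algebra.smul_def]
  ring

lemma dv_add (α β : ℂ) (x y : Sn n) : dv α β (x + y) = dv α β x + dv α β y := by
  simp only [dv, map_add, smul_add]
  abel

lemma dv_C (α β c : ℂ) : dv α β (C c : Sn n) = 0 := by
  simp only [dv, pderiv_C, smul_zero, add_zero]

lemma dv_X0 (α β : ℂ) : dv α β (X 0 : Sn n) = C α := by
  rw [dv, pderiv_X_self, pderiv_X_of_ne, smul_zero, add_zero, smul_eq_C_mul, mul_one]
  intro h
  exact absurd (congrArg Fin.val h) (by simp)

lemma dv_X1 (α β : ℂ) : dv α β (X 1 : Sn n) = C β := by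
  rw [dv, pderiv_X_self, pderiv_X_of_ne, smul_zero, zero_add, smul_eq_C_mul, mul_one]
  intro h
  exact absurd (congrArg Fin.val h) (by simp)

lemma dv_Xs (α β : ℂ) (i : Fin n) : dv α β (X i.succ.succ : Sn n) = 0 := by
  rw [dv, pderiv_X_of_ne, pderiv_X_of_ne, smul_zero, smul_zero, add_zero]
  · intro h
    exact absurd (congrArg Fin.val h) (by simp)
  · intro h
    exact absurd (congrArg Fin.val h) (by simp)

lemma shc_coeff (z : Sn n) (α β : ℂ) (x : Sn n) :
    (shc n z α β x).coeff 0 = x ∧ (shc n z α β x).coeff 1 = z * dv α β x := by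
  induction x using MvPolynomial.induction_on with
  | C a =>
    rw [show (C a : Sn n) = algebraMap ℂ (Sn n) a from rfl, AlgHom.commutes]
    rw [show algebraMap ℂ (Polynomial (Sn n)) a = Polynomial.C (C a) from rfl]
    rw [Polynomial.coeff_C_zero, Polynomial.coeff_C_succ]
    refine ⟨rfl, ?_⟩
    rw [show algebraMap ℂ (Sn n) a = C a from rfl, dv_C, mul_zero]
  | add p q hp hq =>
    rw [map_add, Polynomial.coeff_add, Polynomial.coeff_add, hp.1, hp.2, hq.1, hq.2, dv_add,
      mul_add]
    exact ⟨rfl, rfl⟩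
  | mul_X p i hp =>
    have hX : (shc n z α β (X i)).coeff 0 = X i ∧
        (shc n z α β (X i)).coeff 1 = z * dv α β (X i) := by
      refine Fin.cases ?_ (fun i => ?_) i
      · rw [shc_X0, dv_X0]
        constructor
        · simp
        · simp [Polynomial.coeff_X_mul, smul_eq_C_mul, mul_comm]
      · refine Fin.cases ?_ (fun i => ?_) i
        · have h1 : (X (Fin.succ 0) : Sn n) = X 1 := rfl
          rw [h1, shc_X1, dv_X1]
          constructor
          · simp
          · simp [Polynomial.coeff_X_mul, smul_eq_C_mul, mul_comm]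
        · rw [shc_Xs, dv_Xs]
          constructor
          · simp
          · simp
    rw [map_mul, Polynomial.mul_coeff_zero, Polynomial.mul_coeff_one, hp.1, hp.2, hX.1, hX.2,
      dv_mul]
    refine ⟨rfl, ?_⟩
    ring

/-- **The infinitesimal shear.** -/
theorem inv_first {b a : ℕ} {F : Fm n a} (hI : InvF b F) {z : Sn n} (hz : z ∈ ZZ n) (α β : ℂ)
    {P : Fin a → Sn n} (hP : Dg b P) :
    ∑ i, F (Function.update P i (z * dv α β (P i))) = 0 := by
  have h1 := coeff_one_curve F (fun i => shc n z α β (P i)) (F P) (by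
    intro t
    simp only [shc_eval]
    exact hI _ ((ZZ n).smul_mem _ ((ZZ n).smul_mem _ hz)) _
      ((ZZ n).smul_mem _ ((ZZ n).smul_mem _ hz)) P hP)
  simp only [(shc_coeff z α β _).1, (shc_coeff z α β _).2] at h1
  exact h1

lemma dv_smul (α β c : ℂ) (x : Sn n) : dv α β (c • x) = c • dv α β x := by
  rw [smul_eq_C_mul, dv_mul, dv_C, mul_zero, add_zero, smul_eq_C_mul]

lemma dv_U (α β : ℂ) (p q : ℂ) : dv α β (p • X 0 + q • X 1 : Sn n) = C (α * p + β * q) := by
  rw [dv_add, dv_smul, dv_smul, dv_X0, dv_X1, smul_eq_C_mul, smul_eq_C_mul, ← C_mul, ← C_mul,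
    ← C_add]
  congr 1
  ring

lemma dv_ln (α β x : ℂ) : dv α β (ln n x) = C (α + x * β) := by
  have h := dv_U (n := n) α β 1 x
  rw [one_smul] at h
  rw [ln, h]
  congr 1
  ring

lemma dv_Z (α β : ℂ) {z : Sn n} (hz : z ∈ ZZ n) : dv α β z = 0 := by
  rw [ZZ] at hz
  induction hz using Submodule.span_induction with
  | mem x hx =>
    obtain ⟨i, rfl⟩ := hx
    exact dv_Xs α β i
  | zero =>
    have h := dv_C (n := n) α β 0
    rwa [C_0] at h
  | add x y _ _ hx hy => rw [dv_add, hx, hy, add_zero]
  | smul c x _ hx => rw [dv_smul, hx, smul_zero]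

lemma dv_ZZ_pow (α β : ℂ) {k : ℕ} {w : Sn n} (hw : w ∈ ZZ n ^ k) : dv α β w = 0 := by
  induction k generalizing w with
  | zero =>
    rw [pow_zero, Submodule.mem_one] at hw
    obtain ⟨r, rfl⟩ := hw
    exact dv_C α β r
  | succ k ih =>
    rw [pow_succ] at hw
    induction hw using Submodule.mul_induction_on' with
    | mem_mul_mem x hx y hy => rw [dv_mul, ih hx, dv_Z α β hy, mul_zero, mul_zero, add_zero]
    | add x _ y _ hx hy => rw [dv_add, hx, hy, add_zero]

/-- Euler's identity. -/
lemma euler {d : ℕ} {A : Sn n} (hA : A ∈ U2 n ^ d) :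
    X 0 * dv 1 0 A + X 1 * dv 0 1 A = (d : ℂ) • A := by
  induction d generalizing A with
  | zero =>
    rw [pow_zero, Submodule.mem_one] at hA
    obtain ⟨r, rfl⟩ := hA
    rw [show algebraMap ℂ (Sn n) r = C r from rfl, dv_C, dv_C, mul_zero, mul_zero, add_zero,
      Nat.cast_zero, zero_smul]
  | succ d ih =>
    rw [pow_succ] at hA
    induction hA using Submodule.mul_induction_on' with
    | mem_mul_mem y hy u hu =>
      obtain ⟨p, q, rfl⟩ := Submodule.mem_span_pair.1 hu
      have h1 := ih hy
      rw [dv_mul, dv_mul, dv_U, dv_U]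
      have h2 : X 0 * (y * C (1 * p + 0 * q) + (p • X 0 + q • X 1) * dv 1 0 y) +
          X 1 * (y * C (0 * p + 1 * q) + (p • X 0 + q • X 1) * dv 0 1 y) =
          (p • X 0 + q • X 1) * (X 0 * dv 1 0 y + X 1 * dv 0 1 y) +
            y * (p • X 0 + q • X 1 : Sn n) := by
        rw [smul_eq_C_mul, smul_eq_C_mul, one_mul, zero_mul, add_zero, zero_mul, one_mul, zero_add]
        ring
      rw [h2, h1, Nat.cast_succ, add_smul, one_smul, mul_smul_comm]
      congr 1
      rw [mul_comm]
    | add y _ u _ hy hu =>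
      rw [dv_add, dv_add, smul_add, ← hy, ← hu]
      ring

/-- The derivative of a product of lines. -/
lemma dv_prod {ι : Type*} [DecidableEq ι] (α β : ℂ) (x : ι → ℂ) (s : Finset ι) :
    dv α β (∏ j ∈ s, ln n (x j)) =
      ∑ j ∈ s, (α + x j * β) • ∏ l ∈ s.erase j, ln n (x l) := by
  induction s using Finset.induction_on with
  | empty =>
    rw [Finset.prod_empty, Finset.sum_empty]
    have h := dv_C (n := n) α β 1
    rwa [C_1] at h
  | insert i s hi ih =>
    rw [Finset.prod_insert hi, dv_mul, ih, dv_ln, Finset.sum_insert hi, Finset.erase_insert hi,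
      Finset.mul_sum, add_comm, mul_comm, ← smul_eq_C_mul]
    congr 1
    apply Finset.sum_congr rfl
    intro j hj
    have hji : i ≠ j := by
      rintro rfl
      exact hi hj
    rw [Finset.erase_insert_of_ne hji, Finset.prod_insert (by
      intro h
      exact hi (Finset.mem_of_mem_erase h)), mul_smul_comm]

lemma Dev_zero' (z ξ : Sn n) {a : ℕ} (F : Fm n a) (g : Fin a → Sn n) :
    Dev z 0 ξ F g = F (fun i => ξ * g i) := by
  rw [Dev, Finset.powersetCard_zero, Finset.sum_singleton]
  simp

lemma Dev_one' (z ξ : Sn n) {a : ℕ} (F : Fm n a) (g : Sn n) :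
    Dev z 1 ξ F (fun _ => g) = ∑ i, F (Function.update (fun _ => ξ * g) i (z * g)) := by
  rw [Dev, Finset.powersetCard_one, Finset.sum_map]
  apply Finset.sum_congr rfl
  intro i _
  congr 1
  funext j
  by_cases hj : j = i
  · subst hj
    rw [Function.update_self]
    simp
  · rw [Function.update_of_ne hj]
    simp [hj]

/-- **The full exponent.** -/
theorem top_diag {m b t : ℕ} {F : Fm n (m + 1)} (hI : InvF (b + 1) F)
    (hQ : Q2 Finset.univ b F) {r : Fin n → ℕ} (hr : ∑ i, r i = t) (ht : 3 ≤ t) (htb : t ≤ b + 1)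
    {A : Sn n} (hA : A ∈ U2 n ^ (b + 1 - t)) (x : Fin (b + 1) → ℂ) :
    F.curryLeft (mz r * A) (fun _ => ∏ j, ln n (x j)) = 0 := by
  classical
  obtain ⟨i₀, -, hi₀⟩ : ∃ i ∈ Finset.univ, r i ≠ 0 := by
    by_contra hcon
    push Not at hcon
    rw [Finset.sum_eq_zero hcon] at hr
    omega
  set z : Sn n := X i₀.succ.succ with hz
  have hzZ : z ∈ ZZ n := Submodule.subset_span ⟨i₀, rfl⟩
  let e₀ : Fin n → ℕ := Pi.single i₀ 1
  let r' : Fin n → ℕ := fun i => r i - e₀ i
  have hre : r = r' + e₀ := by
    funext i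
    rw [Pi.add_apply]
    by_cases hi : i = i₀
    · subst hi
      simp only [r', e₀, Pi.single_eq_same]
      omega
    · simp only [r', e₀, Pi.single_eq_of_ne hi]
      omega
  have hes : ∑ i, e₀ i = 1 := by
    simp only [e₀]
    rw [Finset.sum_pi_single']
    simp
  have hrs' : ∑ i, r' i + 1 = t := by
    rw [← hr]
    conv_rhs => rw [hre]
    simp only [Pi.add_apply]
    rw [Finset.sum_add_distrib, hes]
  have hme : mz e₀ = z := by
    rw [mz, Finset.prod_eq_single i₀]
    · simp only [e₀, Pi.single_eq_same, pow_one, hz]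
    · intro i _ hi
      simp only [e₀, Pi.single_eq_of_ne hi, pow_zero]
    · intro h
      exact absurd (Finset.mem_univ _) h
  have hmz : mz r = mz r' * z := by
    conv_lhs => rw [hre]
    rw [mz_add, hme]
  set f : Sn n := ∏ j, ln n (x j) with hf
  let g : Fin (b + 1) → Sn n := fun j => ∏ l ∈ Finset.univ.erase j, ln n (x l)
  have hfg : ∀ j, ln n (x j) * g j = f := fun j =>
    Finset.mul_prod_erase Finset.univ (fun j => ln n (x j)) (Finset.mem_univ j)
  have hfU : f ∈ U2 n ^ (b + 1) := by
    have h3 := H240.prod_mem_pow_card (U2 n) (Finset.univ : Finset (Fin (b + 1)))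
      (fun j => ln n (x j)) (fun j => ln_mem_U2 _)
    rwa [Finset.card_univ, Fintype.card_fin] at h3
  have hgU : ∀ j, g j ∈ U2 n ^ b := by
    intro j
    have h3 := H240.prod_mem_pow_card (U2 n) (Finset.univ.erase j)
      (fun j => ln n (x j)) (fun j => ln_mem_U2 _)
    rwa [Finset.card_erase_of_mem (Finset.mem_univ _), Finset.card_univ, Fintype.card_fin,
      Nat.add_sub_cancel] at h3
  -- the bilinear expression
  let S : Sn n → Sn n → ℂ := fun u y =>
    ∑ i : Fin m, F.curryLeft (mz r' * u) (Function.update (fun _ => f) i (z * y))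
  have hSadd1 : ∀ u v y, S (u + v) y = S u y + S v y := by
    intro u v y
    simp only [S, mul_add, map_add, add_apply, Finset.sum_add_distrib]
  have hSsmul1 : ∀ (c : ℂ) u y, S (c • u) y = c * S u y := by
    intro c u y
    simp only [S, mul_smul_comm, map_smul, smul_apply, smul_eq_mul, Finset.mul_sum]
  have hSadd2 : ∀ u y y', S u (y + y') = S u y + S u y' := by
    intro u y y'
    simp only [S, mul_add, MultilinearMap.map_update_add, Finset.sum_add_distrib]
  have hSsmul2 : ∀ (c : ℂ) u y, S u (c • y) = c * S u y := by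
    intro c u y
    simp only [S, mul_smul_comm, MultilinearMap.map_update_smul, smul_eq_mul, Finset.mul_sum]
  let al : Sn n → ℂ := fun u => F.curryLeft (mz r' * (z * u)) (fun _ => f)
  have haladd : ∀ u v, al (u + v) = al u + al v := by
    intro u v
    simp only [al, mul_add, map_add, add_apply]
  have halsmul : ∀ (c : ℂ) u, al (c • u) = c * al u := by
    intro c u
    simp only [al, mul_smul_comm, map_smul, smul_apply, smul_eq_mul]
  -- the relation of the condition `Q2`
  have hR : ∀ j, ∀ u ∈ U2 n ^ (b + 1 - t), S (ln n (x j) * u) (g j) + al u = 0 := by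
    intro j u hu
    have hu' : mz r' * u ∈ linS (n + 2) ^ b := by
      apply mzA_mem (by omega)
      have h4 : b - ∑ i, r' i = b + 1 - t := by omega
      rwa [h4]
    have h1 := hQ (ln n (x j)) ⟨x j, 0, Submodule.zero_mem _, by rw [add_zero]⟩ z
      (Submodule.subset_span ⟨i₀, Finset.mem_univ _, rfl⟩) 1 le_rfl
      (Fin.cons (mz r' * u) (fun _ => g j))
      (cons_Dg hu' (fun _ => pow_le_pow_left' U2_le _ (hgU j)))
    rw [Dev_cons, Dev_zero', zero_add, Dev_one'] at h1
    simp only [hfg] at h1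
    have h2 : z * (mz r' * u) = mz r' * (z * u) := by ring
    have h3 : ln n (x j) * (mz r' * u) = mz r' * (ln n (x j) * u) := by ring
    rw [h2, h3] at h1
    rw [add_comm]
    exact h1
  -- the infinitesimal shears
  have hN : ∀ (α β : ℂ), ∀ u ∈ U2 n ^ (b + 1 - t + 1), al (dv α β u) + S u (dv α β f) = 0 := by
    intro α β u hu
    have hu' : mz r' * u ∈ linS (n + 2) ^ (b + 1) := by
      apply mzA_mem (by omega)
      have h4 : b + 1 - ∑ i, r' i = b + 1 - t + 1 := by omega
      rwa [h4]
    have h1 := inv_first hI hzZ α β (P := Fin.cons (mz r' * u) (fun _ => f))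
      (cons_Dg hu' (fun _ => pow_le_pow_left' U2_le _ hfU))
    rw [Fin.sum_univ_succ] at h1
    simp only [Fin.cons_zero, Fin.cons_succ, Fin.update_cons_zero] at h1
    have h2 : z * dv α β (mz r' * u) = mz r' * (z * dv α β u) := by
      rw [dv_mul, dv_ZZ_pow α β (mz_mem r'), mul_zero, add_zero]
      ring
    rw [h2] at h1
    have h3 : ∀ i : Fin m, F (Function.update (Fin.cons (mz r' * u) (fun _ => f) :
        Fin (m + 1) → Sn n) i.succ (z * dv α β f)) =
        F.curryLeft (mz r' * u) (Function.update (fun _ => f) i (z * dv α β f)) := by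
      intro i
      rw [MultilinearMap.curryLeft_apply, Fin.cons_update]
    rw [Finset.sum_congr rfl (fun i _ => h3 i)] at h1
    exact h1
  have hX0 : (X 0 : Sn n) ∈ U2 n := Submodule.subset_span (by simp)
  have hX1 : (X 1 : Sn n) ∈ U2 n := Submodule.subset_span (by simp)
  have hA0 : X 0 * A ∈ U2 n ^ (b + 1 - t + 1) := by
    rw [pow_succ']
    exact Submodule.mul_mem_mul hX0 hA
  have hA1 : X 1 * A ∈ U2 n ^ (b + 1 - t + 1) := by
    rw [pow_succ']
    exact Submodule.mul_mem_mul hX1 hA
  have e0 := hN 1 0 (X 0 * A) hA0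
  have e1 := hN 0 1 (X 1 * A) hA1
  have hS : S (X 0 * A) (dv 1 0 f) + S (X 1 * A) (dv 0 1 f) = -((b + 1 : ℕ) : ℂ) * al A := by
    rw [hf, dv_prod, dv_prod]
    have hsum : ∀ (u : Sn n) (c : Fin (b + 1) → ℂ), S u (∑ j, c j • g j) = ∑ j, c j * S u (g j) := by
      intro u c
      let φ : Sn n →ₗ[ℂ] ℂ :=
        { toFun := fun y => S u y
          map_add' := fun y y' => hSadd2 u y y'
          map_smul' := fun c y => hSsmul2 c u y }
      change φ _ = ∑ j, c j * φ (g j)
      rw [map_sum]
      exact Finset.sum_congr rfl fun j _ => by rw [map_smul, smul_eq_mul]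
    have h1 := hsum (X 0 * A) (fun j => 1 + x j * 0)
    have h2 := hsum (X 1 * A) (fun j => 0 + x j * 1)
    change S (X 0 * A) (∑ j, (1 + x j * 0) • g j) + S (X 1 * A) (∑ j, (0 + x j * 1) • g j) = _
    rw [h1, h2, ← Finset.sum_add_distrib]
    have h3 : ∀ j, (1 + x j * 0) * S (X 0 * A) (g j) + (0 + x j * 1) * S (X 1 * A) (g j) =
        - al A := by
      intro j
      have h4 := hR j A hA
      have h5 : ln n (x j) * A = X 0 * A + x j • (X 1 * A) := by
        rw [ln, add_mul, smul_mul_assoc]
      rw [h5, hSadd1, hSsmul1] at h4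
      linear_combination h4
    rw [Finset.sum_congr rfl (fun j _ => h3 j), Finset.sum_const, Finset.card_univ,
      Fintype.card_fin, nsmul_eq_mul]
    ring
  have hD : al (dv 1 0 (X 0 * A)) + al (dv 0 1 (X 1 * A)) =
      (((b + 1 - t : ℕ) : ℂ) + 2) * al A := by
    rw [← haladd, ← halsmul]
    congr 1
    rw [dv_mul, dv_mul, dv_X0, dv_X1, add_smul, ← euler hA]
    rw [smul_eq_C_mul (A) (2 : ℂ)]
    have h2 : (C (2 : ℂ) : Sn n) = 2 := by
      rw [show (2 : ℂ) = 1 + 1 by norm_num, C_add, C_1]
      norm_num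
    rw [h2, C_1]
    ring
  have hfin : (((b + 1 - t : ℕ) : ℂ) + 2 - ((b + 1 : ℕ) : ℂ)) * al A = 0 := by
    linear_combination e0 + e1 - hS - hD
  have hne : ((b + 1 - t : ℕ) : ℂ) + 2 - ((b + 1 : ℕ) : ℂ) ≠ 0 := by
    rw [Nat.cast_sub htb]
    intro h0
    have h1 : ((t : ℕ) : ℂ) = ((2 : ℕ) : ℂ) := by
      push_cast at h0 ⊢
      linear_combination -h0
    have h2 : t = 2 := by exact_mod_cast h1
    omega
  have hal := (mul_eq_zero.1 hfin).resolve_left hne
  rw [hmz, mul_assoc]
  exact hal

end Vale.Agent.P181.G388
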