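import Vale.Agent.P181.H411.LemG

/-!
P181: the forms at the top exponent of the first argument inherit the condition `Q2` as soon as
the number of arguments is at most the degree.
-/

set_option autoImplicit false

open MvPolynomial

namespace Vale.Agent.P181.G388

open Vale.Agent.P181 Vale.Agent.P181.H536 Vale.Agent.P181.H280 Vale.Agent.P181.TN
  Vale.Agent.P181.TW Vale.Agent.P181.R2.H866 Vale.Agent.P181.H72

section General

variable {A : Type*} [CommRing A] [Algebra ℂ A]

/-- Resolving one argument: if `F (v x', v g_1, …, v g_m) = 0` for all linear forms `v` then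
`F (x, v g_1, …, v g_m) = 0`, when `m < B`. -/
theorem resolve {L : Submodule ℂ A} {m B : ℕ} (hB : m + 1 ≤ B) (F : ML A (m + 1))
    (g : Fin m → A)
    (h : ∀ v ∈ L, ∀ x ∈ L ^ (B - 1), F.curryLeft (v * x) (fun i => v * g i) = 0) :
    ∀ v ∈ L, ∀ x ∈ L ^ B, F.curryLeft x (fun i => v * g i) = 0 := by
  intro v hv x hx
  let φ : A →ₗ[ℂ] ℂ :=
    { toFun := fun u => F.curryLeft u (fun i => v * g i)
      map_add' := fun x y => by rw [map_add]; rfl
      map_smul' := fun c x => by rw [map_smul]; rfl }
  have hle : L ^ B ≤ LinearMap.ker φ := by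
    refine (pow_le_span_pow L B).trans ?_
    rw [Submodule.span_le]
    rintro _ ⟨θ, hθ, rfl⟩
    rw [SetLike.mem_coe, LinearMap.mem_ker]
    change F.curryLeft (θ ^ B) (fun i => v * g i) = 0
    set ζ : A := v - θ with hζ
    have hζL : ζ ∈ L := L.sub_mem hv hθ
    -- the polynomial `s ↦ F (θ ^ B, (θ + s ζ) g)`
    obtain ⟨p, hpd, hp⟩ := exists_poly (F.curryLeft (θ ^ B)) (fun i s => (θ + s • ζ) * g i)
      (fun _ => 1) (fun i => by
        have := isCurve_pow θ ζ (g i) 1
        simpa only [pow_one] using this)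
    obtain ⟨q, -, hq⟩ := exists_poly (F.curryLeft (ζ ^ B)) (fun i s => (θ + s • ζ) * g i)
      (fun _ => 1) (fun i => by
        have := isCurve_pow θ ζ (g i) 1
        simpa only [pow_one] using this)
    rw [Finset.sum_const, Finset.card_univ, Fintype.card_fin, smul_eq_mul, mul_one] at hpd
    have hpq : p = Polynomial.X ^ B * (Polynomial.C ((-1 : ℂ) ^ B) * q) := by
      apply Polynomial.funext
      intro s
      rw [hp, Polynomial.eval_mul, Polynomial.eval_pow, Polynomial.eval_X, Polynomial.eval_mul,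
        Polynomial.eval_C, hq]
      have hL' : θ + s • ζ ∈ L := L.add_mem hθ (L.smul_mem _ hζL)
      have h4 : θ = (-s) • ζ + (θ + s • ζ) := by
        rw [neg_smul]; abel
      have h3 : θ ^ B = ∑ l ∈ Finset.range (B + 1),
          ((B.choose l : ℂ) * (-s) ^ l) • ((θ + s • ζ) ^ (B - l) * ζ ^ l) := by
        conv_lhs => rw [h4]
        rw [add_pow]
        apply Finset.sum_congr rfl
        intro l _
        simp only [Algebra.smul_def, map_natCast, map_pow, map_mul, map_neg]
        ring_nf
      have h5 : F.curryLeft (θ ^ B) (fun i => (θ + s • ζ) * g i) =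
          ∑ l ∈ Finset.range (B + 1), ((B.choose l : ℂ) * (-s) ^ l) *
            F.curryLeft ((θ + s • ζ) ^ (B - l) * ζ ^ l) (fun i => (θ + s • ζ) * g i) := by
        rw [h3, map_sum, sum_apply]
        apply Finset.sum_congr rfl
        intro l _
        rw [map_smul, smul_apply, smul_eq_mul]
      rw [h5, Finset.sum_range_succ, Finset.sum_eq_zero, zero_add, Nat.choose_self, Nat.sub_self,
        pow_zero, one_mul, Nat.cast_one, one_mul]
      · rw [neg_pow]
        ring
      · intro l hl
        have hlB : l < B := Finset.mem_range.1 hl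
        have h6 : (θ + s • ζ) ^ (B - l) * ζ ^ l =
            (θ + s • ζ) * ((θ + s • ζ) ^ (B - 1 - l) * ζ ^ l) := by
          rw [← mul_assoc, ← pow_succ']
          congr 2
          omega
        rw [h6, h _ hL' _ ?_, mul_zero]
        have h7 : B - 1 = (B - 1 - l) + l := by omega
        rw [h7, pow_add]
        simp only [Nat.add_sub_cancel]
        exact Submodule.mul_mem_mul (Submodule.pow_mem_pow _ hL' _)
          (Submodule.pow_mem_pow _ hζL _)
    have hp0 : p = 0 := by
      by_contra hne
      have hne' : Polynomial.C ((-1 : ℂ) ^ B) * q ≠ 0 := by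
        intro h0
        apply hne
        rw [hpq, h0, mul_zero]
      rw [hpq, Polynomial.natDegree_mul (pow_ne_zero _ Polynomial.X_ne_zero) hne',
        Polynomial.natDegree_X_pow] at hpd
      omega
    have h8 := hp 1
    rw [hp0, Polynomial.eval_zero] at h8
    rw [h8]
    congr 1
    funext i
    rw [one_smul, hζ]
    congr 1
    abel
  exact hle hx

end General

variable {n : ℕ}

/-- From the chart to all common linear factors, for fixed cofactors. -/
theorem of_chart {a : ℕ} (F : Fm n a) (h : Fin a → Sn n)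
    (hz : ∀ (x : ℂ) (z : Sn n), z ∈ ZZ n → F (fun i => (ln n x + z) * h i) = 0) :
    ∀ ξ ∈ linS (n + 2), F (fun i => ξ * h i) = 0 := by
  intro ξ hξ
  rw [linS_eq] at hξ
  obtain ⟨u, hu, z, hzz, rfl⟩ := Submodule.mem_sup.1 hξ
  obtain ⟨α, β, rfl⟩ := Submodule.mem_span_pair.1 hu
  obtain ⟨P, hP⟩ := poly_exists F (fun i =>
    (Polynomial.C (α • X 0 + β • X 1 + z : Sn n) + Polynomial.X * Polynomial.C (X 0)) *
      Polynomial.C (h i))
  have hP' : ∀ e : ℂ, P.eval e = F (fun i => ((α • X 0 + β • X 1 + z : Sn n) + e • X 0) *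
      h i) := by
    intro e
    rw [hP]
    congr 1
    funext i
    rw [Polynomial.eval_mul, Polynomial.eval_add, Polynomial.eval_C, Polynomial.eval_mul,
      Polynomial.eval_X, Polynomial.eval_C, Polynomial.eval_C, Algebra.smul_def e (X 0 : Sn n)]
  have hP0 : P = 0 := by
    apply Polynomial.eq_of_infinite_eval_eq
    apply Set.Infinite.mono (s := ({-α} : Set ℂ)ᶜ)
    · intro e he
      rw [Set.mem_ofPred_eq, Polynomial.eval_zero, hP']
      have hne : α + e ≠ 0 := by
        intro hj
        apply he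
        rw [Set.mem_singleton_iff]
        linear_combination hj
      have h1 : ∀ i, ((α • X 0 + β • X 1 + z : Sn n) + e • X 0) * h i =
          (α + e) • ((ln n (β / (α + e)) + (α + e)⁻¹ • z) * h i) := by
        intro i
        rw [← smul_mul_assoc]
        congr 1
        rw [smul_add, ln, smul_add, smul_smul, smul_smul, mul_div_cancel₀ _ hne,
          mul_inv_cancel₀ hne, one_smul, add_smul]
        abel
      rw [show (fun i => ((α • X 0 + β • X 1 + z : Sn n) + e • X 0) * h i) =
        fun i => (α + e) • ((ln n (β / (α + e)) + (α + e)⁻¹ • z) * h i) from funext h1,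
        MultilinearMap.map_smul_univ, hz _ _ ((ZZ n).smul_mem _ hzz), smul_zero]
    · exact (Set.finite_singleton _).infinite_compl
  have h3 := hP' 0
  rw [hP0, Polynomial.eval_zero] at h3
  rw [h3]
  congr 1
  funext i
  rw [zero_smul, add_zero]

/-- Products of `k` last variables and `d - k` of the first two. -/
def HS (n d : ℕ) : Set (Sn n) :=
  {x | ∃ k, k ≤ d ∧ ∃ w ∈ ZZ n ^ k, ∃ A ∈ U2 n ^ (d - k), x = w * A}

lemma HS_span {n d : ℕ} : linS (n + 2) ^ d ≤ Submodule.span ℂ (HS n d) := by
  apply Vale.Agent.P181.TN.linS_pow_le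
  intro k hk w hw A hA
  exact Submodule.subset_span ⟨k, hk, w, hw, A, hA, rfl⟩

/-- Elements of degree `d` and weight `k`. -/
def Wt (d k : ℕ) (x : Sn n) : Prop := x ∈ linS (n + 2) ^ d ∧ ∀ c : ℂ, scal n c x = c ^ k • x

lemma wt_mul {d k : ℕ} (hk : k ≤ d) {w A : Sn n} (hw : w ∈ ZZ n ^ k) (hA : A ∈ U2 n ^ (d - k)) :
    Wt d k (w * A) :=
  ⟨wA_mem hk hw hA, fun c => by rw [map_mul, scal_ZZ_pow hw, scal_U2 c hA, smul_mul_assoc]⟩

lemma Wt.mul_U {d k : ℕ} {x u : Sn n} (hx : Wt d k x) (hu : u ∈ U2 n) : Wt (d + 1) k (u * x) := by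
  refine ⟨?_, fun c => ?_⟩
  · rw [pow_succ']
    exact Submodule.mul_mem_mul (U2_le hu) hx.1
  · rw [map_mul, scal_U hu, hx.2 c, mul_smul_comm]

lemma Wt.mul_Z {d k : ℕ} {x z : Sn n} (hx : Wt d k x) (hz : z ∈ ZZ n) :
    Wt (d + 1) (k + 1) (z * x) := by
  refine ⟨?_, fun c => ?_⟩
  · rw [pow_succ']
    exact Submodule.mul_mem_mul (ZZ_le hz) hx.1
  · rw [map_mul, scal_Z hz, hx.2 c, smul_mul_smul_comm, pow_succ']

/-- A form vanishes on homogeneous arguments of the wrong total weight. -/
theorem weight_zero {a B t : ℕ} {F : Fm n a} (hH : Hom B t F) {x : Fin a → Sn n} {e : Fin a → ℕ}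
    (hx : ∀ i, Wt B (e i) (x i)) (hne : ∑ i, e i ≠ t) : F x = 0 := by
  have h1 := hH 2 two_ne_zero x (fun i => (hx i).1)
  have h2 : (fun i => scal n 2 (x i)) = fun i => (2 : ℂ) ^ e i • x i := by
    funext i
    exact (hx i).2 2
  rw [h2, MultilinearMap.map_smul_univ, Finset.prod_pow_eq_pow_sum, smul_eq_mul] at h1
  have h3 : ((2 : ℂ) ^ (∑ i, e i) - 2 ^ t) * F x = 0 := by
    rw [sub_mul, h1, sub_self]
  refine (mul_eq_zero.1 h3).resolve_left ?_
  intro h4
  rw [sub_eq_zero] at h4
  have h5 : (2 : ℕ) ^ (∑ i, e i) = 2 ^ t := by exact_mod_cast h4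
  exact hne (Nat.pow_right_injective le_rfl h5)

theorem weight_zero_cons {m B t k : ℕ} {F : Fm n (m + 1)} (hH : Hom B t F) {u : Sn n}
    (hu : Wt B k u) {x : Fin m → Sn n} {e : Fin m → ℕ}
    (hx : ∀ i, Wt B (e i) (x i)) (hne : k + ∑ i, e i ≠ t) : F.curryLeft u x = 0 := by
  rw [MultilinearMap.curryLeft_apply]
  apply weight_zero hH (e := Fin.cons k e)
  · intro i
    refine Fin.cases ?_ (fun i => ?_) i
    · rw [Fin.cons_zero, Fin.cons_zero]; exact hu
    · rw [Fin.cons_succ, Fin.cons_succ]; exact hx i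
  · rw [Fin.sum_univ_succ, Fin.cons_zero]
    simp only [Fin.cons_succ]
    exact hne

/-- **The condition `Q2` at the top exponent.** -/
theorem q2_top {m b κ t : ℕ} {F : Fm n (m + 1)} (hH : Hom (b + 1) t F)
    (hQ : Q2 Finset.univ b F) (hmb : m ≤ b) (hTop : Top (b + 1) κ F) (hκ : κ ≤ b + 1)
    {v : Sn n} (hv : v ∈ ZZ n ^ κ) {A : Sn n} (hA : A ∈ U2 n ^ (b + 1 - κ)) :
    Q2 Finset.univ b (F.curryLeft (v * A)) := by
  classical
  intro ξ hξ z hz j hj g hg
  have hξU : ξ ∈ U2 n := by
    obtain ⟨x, z', hz', rfl⟩ := hξ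
    have h0 : z' = 0 := by
      rw [Finset.compl_univ] at hz'
      have h1 : ZS (∅ : Finset (Fin n)) = ⊥ := by
        rw [ZS, Submodule.span_eq_bot]
        rintro x ⟨i, hi, _⟩
        exact absurd hi (Finset.notMem_empty i)
      rw [h1, Submodule.mem_bot] at hz'
      exact hz'
    rw [h0, add_zero]
    exact ln_mem_U2 x
  have hzZ : z ∈ ZZ n := ZS_le _ hz
  let Φ : MultilinearMap ℂ (fun _ : Fin m => Sn n) ℂ :=
    ∑ I ∈ (Finset.univ : Finset (Fin m)).powersetCard j,
      (F.curryLeft (v * A)).compLinearMap (fun i => LinearMap.mulLeft ℂ (if i ∈ I then z else ξ))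
  have hΦ : ∀ g, Φ g = Dev z j ξ (F.curryLeft (v * A)) g := by
    intro g
    simp only [Φ, sum_apply, MultilinearMap.compLinearMap_apply,
      LinearMap.mulLeft_apply, Dev]
  rw [← hΦ]
  refine multilinear_zero_of_span Φ (HS n b) ?_ g (fun i => HS_span (hg i))
  intro g hg
  rw [hΦ]
  choose e he w hw B hB hgw using hg
  have hgW : ∀ i, Wt b (e i) (g i) := by
    intro i
    rw [hgw i]
    exact wt_mul (he i) (hw i) (hB i)
  have hvA : Wt (b + 1) κ (v * A) := wt_mul hκ hv hA
  by_cases hE : κ + j + ∑ i, e i = t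
  · -- the form vanishes at all common linear factors
    have key : ∀ ζ ∈ linS (n + 2), ∀ x ∈ linS (n + 2) ^ (b + 1),
        F.curryLeft x (fun i => ζ * g i) = 0 := by
      apply resolve (by omega)
      intro ζ hζ x' hx'
      rw [Nat.add_sub_cancel] at hx'
      have h1 := of_chart F (Fin.cons x' g) ?_ ζ hζ
      · have h2 : (fun i => ζ * (Fin.cons x' g : Fin (m + 1) → Sn n) i) =
            Fin.cons (ζ * x') (fun i => ζ * g i) := by
          funext i
          refine Fin.cases ?_ (fun i => ?_) i
          · rw [Fin.cons_zero, Fin.cons_zero]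
          · rw [Fin.cons_succ, Fin.cons_succ]
        rw [h2] at h1
        exact h1
      · intro x z' hz'
        have hz'S : z' ∈ ZS (Finset.univ : Finset (Fin n)) := by
          have h3 : ZZ n ≤ ZS (Finset.univ : Finset (Fin n)) := by
            rw [ZZ, Submodule.span_le]
            rintro _ ⟨i, rfl⟩
            exact Submodule.subset_span ⟨i, Finset.mem_univ i, rfl⟩
          exact h3 hz'
        rw [hQ.eq ⟨x, 0, Submodule.zero_mem _, by rw [add_zero]⟩ hz'S
          (cons_Dg hx' (fun i => (hgW i).1))]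
        have h2 : (fun i => ln n x * (Fin.cons x' g : Fin (m + 1) → Sn n) i) =
            Fin.cons (ln n x * x') (fun i => ln n x * g i) := by
          funext i
          refine Fin.cases ?_ (fun i => ?_) i
          · rw [Fin.cons_zero, Fin.cons_zero]
          · rw [Fin.cons_succ, Fin.cons_succ]
        rw [h2, ← MultilinearMap.curryLeft_apply]
        let W : Submodule ℂ (Sn n) :=
          LinearMap.ker ({ toFun := fun u => F.curryLeft u (fun i => ln n x * g i)
                           map_add' := fun x y => by rw [map_add]; rfl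
                           map_smul' := fun c x => by rw [map_smul]; rfl } : Sn n →ₗ[ℂ] ℂ)
        have h3 : linS (n + 2) ^ (b + 1) ≤ W := by
          apply linS_pow_le
          intro k hk v' hv' A' hA'
          change F.curryLeft (v' * A') (fun i => ln n x * g i) = 0
          by_cases hkt : k + ∑ i, e i = t
          · apply hTop k (by omega) hk v' hv' A' hA'
            intro i
            rw [pow_succ']
            exact Submodule.mul_mem_mul (ln_mem x) (hgW i).1
          · exact weight_zero_cons hH (wt_mul hk hv' hA')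
              (fun i => (hgW i).mul_U (ln_mem_U2 x)) hkt
        apply h3
        rw [pow_succ']
        exact Submodule.mul_mem_mul (ln_mem x) hx'
    by_cases hjm : j ≤ m
    · refine coeff_zero_of_sum (N := m + 1)
        (u := fun k => Dev z k ξ (F.curryLeft (v * A)) g) ?_ (by omega)
      intro c
      rw [← gen]
      exact key _ ((linS (n + 2)).add_mem (U2_le hξU) ((linS (n + 2)).smul_mem _ (ZZ_le hzZ)))
        _ hvA.1
    · exact Dev_of_lt _ (by omega) _ _ _
  · rw [Dev]
    apply Finset.sum_eq_zero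
    intro I hI
    apply weight_zero_cons hH hvA (e := fun i => e i + if i ∈ I then 1 else 0)
    · intro i
      by_cases hi : i ∈ I
      · simp only [if_pos hi]
        exact (hgW i).mul_Z hzZ
      · simp only [if_neg hi, add_zero]
        exact (hgW i).mul_U hξU
    · rw [Finset.sum_add_distrib]
      have h1 : ∑ i : Fin m, (if i ∈ I then 1 else 0) = j := by
        rw [Finset.sum_boole, Nat.cast_id, Finset.filter_mem_eq_inter, Finset.univ_inter]
        exact (Finset.mem_powersetCard.1 hI).2
      rw [h1]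
      omega

end Vale.Agent.P181.G388
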